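import Vale.Agent.P164.Bdl.B1
import Vale.Agent.P142.KoebeBound

/-!
# P155, branching SLE₄(-2): Koebe and Schwarz for the Loewner flow

Copied from `P164/Bdl/B4.lean`, over the original files of `P142`.
-/

namespace Vale.Agent.P155.Tree.Ge1

open Set Metric Filter Topology MeasureTheory Vale.Agent.P164
open scoped NNReal

/-- A cheap Koebe theorem: an omitted value of a normalised univalent function is at distance at
least `1/10` of the origin. -/
theorem koebe_omitted {F : ℂ → ℂ} (hF : DifferentiableOn ℂ F (ball 0 1))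
    (hinj : InjOn F (ball 0 1)) (h0 : F 0 = 0) (h1 : deriv F 0 = 1) {a : ℂ}
    (ha : ∀ ζ ∈ ball (0 : ℂ) 1, F ζ ≠ a) : 1 / 10 ≤ ‖a‖ := by
  have hm0 : (0 : ℂ) ∈ ball (0 : ℂ) 1 := mem_ball_self one_pos
  have ha0 : a ≠ 0 := fun h => ha 0 hm0 (by rw [h0, h])
  set G : ℂ → ℂ := fun ζ => a * F ζ / (a - F ζ) with hG
  have hden : ∀ ζ ∈ ball (0 : ℂ) 1, a - F ζ ≠ 0 := fun ζ hζ => sub_ne_zero.2 (ha ζ hζ).symm
  have hGd : DifferentiableOn ℂ G (ball 0 1) :=
    (hF.const_mul a).div ((differentiableOn_const a).sub hF) hden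
  have hGi : InjOn G (ball 0 1) := by
    intro x hx y hy hxy
    apply hinj hx hy
    have e := hxy
    simp only [hG] at e
    rw [div_eq_div_iff (hden x hx) (hden y hy)] at e
    have : a * a * (F x - F y) = 0 := by linear_combination e
    rcases mul_eq_zero.1 this with h | h
    · exact absurd (mul_self_eq_zero.1 h) ha0
    · exact sub_eq_zero.1 h
  have hG0 : G 0 = 0 := by simp only [hG, h0, mul_zero, sub_zero, zero_div]
  have hFat : DifferentiableAt ℂ F 0 := (hF 0 hm0).differentiableAt (isOpen_ball.mem_nhds hm0)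
  have hFd : HasDerivAt F 1 0 := h1 ▸ hFat.hasDerivAt
  have hG1 : deriv G 0 = 1 := by
    have h2 : HasDerivAt G ((a * 1 * (a - F 0) - a * F 0 * -1) / (a - F 0) ^ 2) 0 :=
      (hFd.const_mul a).div (hFd.const_sub a) (hden 0 hm0)
    rw [h2.deriv, h0]
    field_simp
    ring
  have hb1 := P142.norm_tc_one_le hF hinj h0 h1
  have hb2 := P142.norm_tc_one_le hGd hGi hG0 hG1
  have htc : ∀ V : ℂ → ℂ, P142.tc V 1 = deriv V 0 := fun V => by
    simp only [P142.tc, Nat.factorial_one, Nat.cast_one, inv_one, iteratedDeriv_one, one_mul]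
  have hRel : P142.Rfun G =ᶠ[𝓝 0] fun ζ => P142.Rfun F ζ - ζ / a := by
    have hmem : ball (0 : ℂ) 1 ∈ 𝓝 (0 : ℂ) := isOpen_ball.mem_nhds hm0
    filter_upwards [hmem] with ζ hζ
    rcases eq_or_ne ζ 0 with rfl | hne
    · simp only [P142.Rfun, dslope_same, hG1, inv_one, h1, zero_div, sub_zero]
    · have hFne : F ζ ≠ 0 := fun h => hne (hinj hζ hm0 (by rw [h, h0]))
      simp only [P142.Rfun]
      rw [dslope_of_ne _ hne, dslope_of_ne _ hne, slope_def_field, slope_def_field, hG0, h0]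
      simp only [hG, sub_zero]
      have := hden ζ hζ
      field_simp
  have hRFd : DifferentiableAt ℂ (P142.Rfun F) 0 :=
    (P142.Rfun_diff hF hinj h0 h1 0 hm0).differentiableAt (isOpen_ball.mem_nhds hm0)
  have hd : deriv (P142.Rfun G) 0 = deriv (P142.Rfun F) 0 - 1 / a := by
    rw [hRel.deriv_eq]
    have h3 : HasDerivAt (fun ζ : ℂ => P142.Rfun F ζ - ζ / a) (deriv (P142.Rfun F) 0 - 1 / a) 0 :=
      hRFd.hasDerivAt.sub ((hasDerivAt_id (0 : ℂ)).div_const a)
    exact h3.deriv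
  rw [htc] at hb1 hb2
  have h4 : ‖1 / a‖ ≤ 29 / 3 := by
    have e : 1 / a = deriv (P142.Rfun F) 0 - deriv (P142.Rfun G) 0 := by rw [hd]; ring
    rw [e]
    refine (norm_sub_le _ _).trans ?_
    linarith only [hb1, hb2]
  rw [norm_div, norm_one] at h4
  have hapos : 0 < ‖a‖ := norm_pos_iff.2 ha0
  rw [div_le_iff₀ hapos] at h4
  linarith only [h4, hapos]

/-- The inverse of the (centred) Loewner map. -/
noncomputable def invflow (W : ℝ → ℝ) (t : ℝ) (w : ℂ) : ℂ :=
  Function.invFunOn (flow W t) (loewnerDomain W t) w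

lemma exists_flow_eq {W : ℝ → ℝ} {t : ℝ} (ht : 0 ≤ t) (hW : ContinuousOn W (Icc 0 t)) {w : ℂ}
    (hw : 0 < w.im) : ∃ z ∈ loewnerDomain W t, flow W t z = w := by
  have hw' : 0 < (w + (W t : ℂ)).im := by simpa only [Complex.add_im, Complex.ofReal_im, add_zero] using hw
  obtain ⟨z, g, hg, hgt⟩ := exists_preimage ht hW hw'
  exact ⟨z, ⟨g, hg⟩, by rw [flow_eq ht hg, hgt]; ring⟩

lemma invflow_mem {W : ℝ → ℝ} {t : ℝ} (ht : 0 ≤ t) (hW : ContinuousOn W (Icc 0 t)) {w : ℂ}
    (hw : 0 < w.im) : invflow W t w ∈ loewnerDomain W t :=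
  Function.invFunOn_mem (exists_flow_eq ht hW hw)

lemma flow_invflow {W : ℝ → ℝ} {t : ℝ} (ht : 0 ≤ t) (hW : ContinuousOn W (Icc 0 t)) {w : ℂ}
    (hw : 0 < w.im) : flow W t (invflow W t w) = w :=
  Function.invFunOn_eq (exists_flow_eq ht hW hw)

lemma invflow_flow {W : ℝ → ℝ} {t : ℝ} (ht : 0 ≤ t) (hW : ContinuousOn W (Icc 0 t)) {z : ℂ}
    (hz : z ∈ loewnerDomain W t) : invflow W t (flow W t z) = z := by
  have him := flow_im_pos hz ⟨ht, le_rfl⟩
  exact flow_injOn ht hW (invflow_mem ht hW him) hz (flow_invflow ht hW him)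

lemma dflow_ne_zero (W : ℝ → ℝ) (t : ℝ) (z : ℂ) : dflow W t z ≠ 0 := Complex.exp_ne_zero _

lemma hasDerivAt_invflow {W : ℝ → ℝ} {t : ℝ} (ht : 0 ≤ t) (hW : ContinuousOn W (Icc 0 t)) {w : ℂ}
    (hw : 0 < w.im) : HasDerivAt (invflow W t) (dflow W t (invflow W t w))⁻¹ w := by
  set z := invflow W t w with hz
  have hzm : z ∈ loewnerDomain W t := invflow_mem ht hW hw
  have hopen := isOpen_domain ht hW
  have hdiff : DifferentiableOn ℂ (flow W t) (loewnerDomain W t) := fun x hx =>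
    (hasDerivAt_flow ht hW hx).differentiableAt.differentiableWithinAt
  have han : AnalyticAt ℂ (flow W t) z := hdiff.analyticAt (hopen.mem_nhds hzm)
  have hs : HasStrictDerivAt (flow W t) (dflow W t z) z := by
    have h1 := han.hasStrictDerivAt
    rwa [(hasDerivAt_flow ht hW hzm).deriv] at h1
  have hl : ∀ᶠ x in 𝓝 z, invflow W t (flow W t x) = x := by
    filter_upwards [hopen.mem_nhds hzm] with x hx using invflow_flow ht hW hx
  have h2 := hs.to_local_left_inverse (dflow_ne_zero W t z) hl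
  rw [flow_invflow ht hW hw] at h2
  exact h2.hasDerivAt

/-- Koebe: the disc of radius `exp U / 10` around an alive point is alive. -/
theorem ball_subset_domain {W : ℝ → ℝ} {t : ℝ} (ht : 0 ≤ t) (hW : ContinuousOn W (Icc 0 t))
    {z : ℂ} (hz : z ∈ loewnerDomain W t) :
    ball z (Real.exp (logUps W t z) / 10) ⊆ loewnerDomain W t := by
  intro z₁ hz₁
  by_contra hnot
  set w := flow W t z with hw
  have hY : 0 < w.im := flow_im_pos hz ⟨ht, le_rfl⟩
  set Y : ℝ := w.im with hYdef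
  have hYc : (Y : ℂ) ≠ 0 := by exact_mod_cast hY.ne'
  set D := dflow W t z with hD
  have hD0 : D ≠ 0 := dflow_ne_zero W t z
  have hpos : ∀ ζ ∈ ball (0 : ℂ) 1, 0 < (w + Y * ζ).im := by
    intro ζ hζ
    rw [mem_ball_zero_iff] at hζ
    have h1 : |ζ.im| ≤ ‖ζ‖ := Complex.abs_im_le_norm ζ
    have h2 : -1 < ζ.im := by
      have := neg_abs_le ζ.im
      linarith only [hζ, h1, this]
    rw [Complex.add_im, Complex.im_ofReal_mul, ← hYdef]
    nlinarith only [hY, h2]
  have hinv0 : invflow W t w = z := invflow_flow ht hW hz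
  set F : ℂ → ℂ := fun ζ => (invflow W t (w + Y * ζ) - z) * (D / Y) with hF
  have hDY : D / Y ≠ 0 := div_ne_zero hD0 hYc
  have hder : ∀ ζ ∈ ball (0 : ℂ) 1, HasDerivAt F
      ((dflow W t (invflow W t (w + Y * ζ)))⁻¹ * Y * (D / Y)) ζ := by
    intro ζ hζ
    have h1 := hasDerivAt_invflow ht hW (hpos ζ hζ)
    have h2 : HasDerivAt (fun ζ : ℂ => w + Y * ζ) (Y : ℂ) ζ := by
      simpa using ((hasDerivAt_id ζ).const_mul (Y : ℂ)).const_add w
    exact ((h1.comp ζ h2).sub_const z).mul_const (D / Y)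
  have hFd : DifferentiableOn ℂ F (ball 0 1) := fun ζ hζ =>
    (hder ζ hζ).differentiableAt.differentiableWithinAt
  have hFi : InjOn F (ball 0 1) := by
    intro x hx y hy hxy
    have h1 : invflow W t (w + Y * x) = invflow W t (w + Y * y) := by
      have := mul_right_cancel₀ hDY hxy
      linear_combination this
    have h2 := congrArg (flow W t) h1
    rw [flow_invflow ht hW (hpos x hx), flow_invflow ht hW (hpos y hy)] at h2
    exact mul_left_cancel₀ hYc (add_left_cancel h2)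
  have hm0 : (0 : ℂ) ∈ ball (0 : ℂ) 1 := mem_ball_self one_pos
  have hF0 : F 0 = 0 := by simp only [hF, mul_zero, add_zero, hinv0, sub_self, zero_mul]
  have hF1 : deriv F 0 = 1 := by
    rw [(hder 0 hm0).deriv, mul_zero, add_zero, hinv0]
    field_simp
    exact div_self hD0
  have ha : ∀ ζ ∈ ball (0 : ℂ) 1, F ζ ≠ (z₁ - z) * (D / Y) := by
    intro ζ hζ h
    have h1 := mul_right_cancel₀ hDY h
    have h2 : invflow W t (w + Y * ζ) = z₁ := by linear_combination h1
    exact hnot (h2 ▸ invflow_mem ht hW (hpos ζ hζ))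
  have key := koebe_omitted hFd hFi hF0 hF1 ha
  rw [norm_mul, norm_div, Complex.norm_real, Real.norm_eq_abs, abs_of_pos hY, hD,
    norm_dflow ht hW hz, ← hw, ← hYdef, mul_div_assoc', mul_comm Y, ← mul_assoc,
    mul_div_assoc, div_self hY.ne', mul_one, Real.exp_neg] at key
  rw [mem_ball, dist_eq_norm] at hz₁
  have hE := Real.exp_pos (logUps W t z)
  have h3 : ‖z₁ - z‖ * (Real.exp (logUps W t z))⁻¹ < 1 / 10 := by
    rw [← div_eq_mul_inv, div_lt_iff₀ hE]
    linarith only [hz₁]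
  linarith only [key, h3]

/-- Schwarz: an alive disc around `z` has radius at most `2 exp U`. -/
theorem radius_le {W : ℝ → ℝ} {t : ℝ} (ht : 0 ≤ t) (hW : ContinuousOn W (Icc 0 t))
    {z : ℂ} {δ : ℝ} (hδ : 0 < δ) (h : ball z δ ⊆ loewnerDomain W t) :
    δ ≤ 2 * Real.exp (logUps W t z) := by
  have hz : z ∈ loewnerDomain W t := h (mem_ball_self hδ)
  set w := flow W t z with hw
  have hY : 0 < w.im := flow_im_pos hz ⟨ht, le_rfl⟩
  set φ : ℂ → ℂ := fun x => (x - w) / (x - (starRingEnd ℂ) w) with hφ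
  have hden : ∀ x : ℂ, 0 < x.im → x - (starRingEnd ℂ) w ≠ 0 := by
    intro x hx h0
    have := congrArg Complex.im h0
    simp only [Complex.sub_im, Complex.conj_im, Complex.zero_im] at this
    linarith only [hY, hx, this]
  have hφd : ∀ x : ℂ, 0 < x.im → HasDerivAt φ
      ((1 * (x - (starRingEnd ℂ) w) - (x - w) * 1) / (x - (starRingEnd ℂ) w) ^ 2) x :=
    fun x hx => ((hasDerivAt_id x).sub_const w).div ((hasDerivAt_id x).sub_const _) (hden x hx)
  have hφ1 : ∀ x : ℂ, 0 < x.im → ‖φ x‖ ≤ 1 := by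
    intro x hx
    rw [hφ]
    simp only
    rw [norm_div, div_le_one (norm_pos_iff.2 (hden x hx)), Complex.norm_def, Complex.norm_def]
    apply Real.sqrt_le_sqrt
    rw [Complex.normSq_apply, Complex.normSq_apply]
    simp only [Complex.sub_re, Complex.sub_im, Complex.conj_re, Complex.conj_im]
    nlinarith only [hY, hx]
  set ψ : ℂ → ℂ := fun x => φ (flow W t x) with hψ
  have hψd : ∀ x ∈ ball z δ, DifferentiableAt ℂ ψ x := fun x hx =>
    ((hφd _ (flow_im_pos (h hx) ⟨ht, le_rfl⟩)).comp x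
      (hasDerivAt_flow ht hW (h hx))).differentiableAt
  have hψ0 : ψ z = 0 := by simp only [hψ, hφ, ← hw, sub_self, zero_div]
  have hmaps : MapsTo ψ (ball z δ) (closedBall (ψ z) 1) := by
    intro x hx
    rw [hψ0, mem_closedBall_zero_iff]
    exact hφ1 _ (flow_im_pos (h hx) ⟨ht, le_rfl⟩)
  have key := Complex.norm_deriv_le_div_of_mapsTo_ball
    (fun x hx => (hψd x hx).differentiableWithinAt) hmaps hδ
  have hd : deriv ψ z = (w - (starRingEnd ℂ) w)⁻¹ * dflow W t z := by
    have h1 := ((hφd w hY).comp z (hasDerivAt_flow ht hW hz))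
    have h2 : deriv ψ z = _ := h1.deriv
    rw [h2]
    have := hden w hY
    field_simp
    ring
  have e2 : w - (starRingEnd ℂ) w = ((2 * w.im : ℝ) : ℂ) * Complex.I := by
    apply Complex.ext <;> simp
    ring
  rw [hd, e2, norm_mul, norm_inv, norm_mul, Complex.norm_I, mul_one, Complex.norm_real,
    Real.norm_eq_abs, abs_of_pos (by linarith only [hY]), norm_dflow ht hW hz, ← hw] at key
  have hE := Real.exp_pos (logUps W t z)
  have e3 : (2 * w.im)⁻¹ * (w.im * Real.exp (-logUps W t z)) =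
      (2 * Real.exp (logUps W t z))⁻¹ := by
    rw [Real.exp_neg]
    field_simp
  rw [e3, one_div] at key
  exact (inv_le_inv₀ (by positivity) hδ).1 key

variable {W : ℝ → ℝ} {z : ℂ} {t ρ : ℝ}

theorem Zf_injOn (hW : Continuous W) (ht : 0 ≤ t) :
    InjOn (fun z => Zf W z t) (loewnerDomain W t) :=
  flow_injOn ht hW.continuousOn

theorem Zf_hasDerivAt (hW : Continuous W) (ht : 0 ≤ t) (h : z ∈ loewnerDomain W t) :
    HasDerivAt (fun z => Zf W z t)
      (Complex.exp (-∫ s in (0 : ℝ)..t, 2 / (Zf W z s) ^ 2)) z :=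
  hasDerivAt_flow ht hW.continuousOn h

theorem ball_subset_dom (hW : Continuous W) (ht : 0 ≤ t) (h : z ∈ loewnerDomain W t) :
    ball z (Real.exp (Uf W z t) / 10) ⊆ loewnerDomain W t :=
  ball_subset_domain ht hW.continuousOn h

theorem le_exp_Uf (hW : Continuous W) (ht : 0 ≤ t) (hρ : 0 < ρ)
    (h : ball z ρ ⊆ loewnerDomain W t) : ρ ≤ 2 * Real.exp (Uf W z t) :=
  radius_le ht hW.continuousOn hρ h

theorem isOpen_dom (hW : Continuous W) (ht : 0 ≤ t) : IsOpen (loewnerDomain W t) :=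
  isOpen_domain ht hW.continuousOn

end Vale.Agent.P155.Tree.Ge1
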